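import Vale.Agent.P281.H969.TG.Spec
import Vale.Agent.P281.H64.Gen.SpecN

/-!
# P281, project T-G, second part (helper969): exceptional divisors, statements (FROZEN)

As T-G, with `K_(X₁) + Δ₁ ≤ u^*(K_X + Δ)` only over `X ∖ B`, `B` analytic of codimension two (so: up to
divisors of `X₁` which are exceptional for `u`: modifications, resolutions of ramified coverings).
-/

open Set Filter Metric MeasureTheory Vale.Agent.P281 Vale.Agent.P281.H713 Vale.Agent.P272.K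
open Vale.Agent.P281.MF Vale.Agent.P281.ISO Vale.Agent.P281.H713.TZ
open Vale.Agent.P281.H64.Thin (IsThinSet)
open Vale.Agent.P281.H64.Gen (IsSmallSet IsSmall2 IsAnalyticSet NoExc)
open Vale.Agent.P281.H64.TU (Tame KTame TameOK RelFormT HasFormsT)
open Vale.Agent.P281.H969.TG (LogLe UTame HasFormsD HasFam tr)

open scoped Topology ContDiff Manifold ComplexConjugate ComplexOrder ENNReal NNReal

noncomputable section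

namespace Vale.Agent.P281.H969.TGB

section
variable {n p : ℕ} {X₁ Y₁ X Y : Type} [TopologicalSpace X₁] [ChartedSpace (Cm n) X₁]
  [TopologicalSpace Y₁] [ChartedSpace (Cm p) Y₁] [TopologicalSpace X] [ChartedSpace (Cm n) X]
  [TopologicalSpace Y] [ChartedSpace (Cm p) Y]

/-- A generically finite square, with `K_(X₁) + Δ₁ ≤ u^*(K_X + Δ)` over `X ∖ (f⁻¹(S₀) ∪ B)`. -/
structure IsSqB (f₁ : X₁ → Y₁) (Δ₁ : Set X₁ → ℝ) (f : X → Y) (Δ : Set X → ℝ) (u : X₁ → X)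
    (v : Y₁ → Y) (S₀ : Set Y) (B : Set X) : Prop where
  holu : ContMDiff 𝓘(ℂ, Cm n) 𝓘(ℂ, Cm n) ω u
  holv : ContMDiff 𝓘(ℂ, Cm p) 𝓘(ℂ, Cm p) ω v
  comm : ∀ x₁, f (u x₁) = v (f₁ x₁)
  surj : Function.Surjective u
  small : IsSmallSet (Cm p) S₀
  etale : ∀ y₁, v y₁ ∉ S₀ → Function.Injective (mfderiv 𝓘(ℂ, Cm p) 𝓘(ℂ, Cm p) v y₁)
  small2 : IsSmall2 (Cm n) B
  an : IsAnalyticSet (Cm n) B
  le : ∀ x₁, v (f₁ x₁) ∉ S₀ → u x₁ ∉ B → LogLe n u Δ₁ Δ x₁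

end

/-- The slices in `𝒯` which do not meet `B`. -/
def OffT {E₀ X : Type} [PseudoMetricSpace E₀] (B : Set X) (𝒯 : Tame E₀ X) : Tame E₀ X :=
  fun K Q v₀ r => (∀ v ∈ ball v₀ r, Q v ∉ B) ∧ 𝒯 K Q v₀ r

/-- `TameOK` off `B`. -/
def TameOKB {n : ℕ} {E₀ Z : Type} [NormedAddCommGroup E₀] [NormedSpace ℂ E₀] [TopologicalSpace Z]
    [ChartedSpace (Cm n) Z] (B : Set Z) (T : Tame E₀ Z) : Prop :=
  ∀ (y z₀ : Z) (P : Cm n →L[ℂ] E₀), y ∉ B → y ∈ (chartAt (Cm n) z₀).source →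
    ∃ N ∈ 𝓝 y, ∃ K : ℝ, 0 < K ∧
    ∀ (Q : E₀ → Z) (v₀ : E₀) (r : ℝ), 0 < r → (∀ v ∈ ball v₀ r,
      ContMDiffAt 𝓘(ℂ, E₀) 𝓘(ℂ, Cm n) ω Q v ∧ Q v ∈ N ∧ P (chartAt (Cm n) z₀ (Q v)) = v) →
      T K Q v₀ r

/-- **B1**: the fibres contained in `B`. (Over `Y ∖ S` the set `{y | f⁻¹(y) ⊆ B}` is closed, as `f` is
open there; near `y₀`, at a point `x₀` of `f⁻¹(y₀)`, `B ⊆ {g = 0}`, `g ≢ 0` as `B` is nowhere dense;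
in a product chart `(y', w)` some `g(y', w₁)` is not identically zero.) -/
def BadStmt : Prop :=
  ∀ (p d : ℕ) (X Y : Type) [TopologicalSpace X] [T2Space X] [CompactSpace X]
    [ChartedSpace (Cm (p + d)) X] [IsManifold 𝓘(ℂ, Cm (p + d)) ω X] [TopologicalSpace Y]
    [T2Space Y] [ChartedSpace (Cm p) Y] [IsManifold 𝓘(ℂ, Cm p) ω Y] (f : X → Y) (S : Set Y)
    (B : Set X), ContMDiff 𝓘(ℂ, Cm (p + d)) 𝓘(ℂ, Cm p) ω f → IsSmallSet (Cm p) S →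
    H64.IsProperFibration (n := p + d) (p := p) f S → IsSmall2 (Cm (p + d)) B →
    IsAnalyticSet (Cm (p + d)) B →
    ∃ S' : Set Y, S ⊆ S' ∧ IsSmallSet (Cm p) S' ∧ ∀ y ∉ S', ¬ f ⁻¹' {y} ⊆ B

/-- **B2**: a hypersurface is not contained in `B`. -/
def HypStmt : Prop :=
  ∀ (n : ℕ) (X : Type) [TopologicalSpace X] [T2Space X] [ChartedSpace (Cm n) X]
    [IsManifold 𝓘(ℂ, Cm n) ω X] (B : Set X) (g : X → ℂ) (x : X), IsSmall2 (Cm n) B →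
    HolV (Cm n) g x → g x = 0 → ∃ᶠ z in 𝓝 x, g z = 0 ∧ z ∉ B

/-- **B3** (copy of `H383/U/{Lift,Core,Main}.lean` with `TameOKB B` in place of `TameOK`: `h𝒯` is used
only in `bd_T` at the point `y`; before `genM`, replace `x` by a point `x'` of `{Den' = 0} ∖ B`, by
B2, and shrink the neighbourhood: `B` is closed). -/
def LiftTBStmt : Prop :=
  ∀ (n p : ℕ) (X Y E₁ : Type) [TopologicalSpace X] [T2Space X] [ConnectedSpace X]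
    [ChartedSpace (Cm n) X] [IsManifold 𝓘(ℂ, Cm n) ω X] [TopologicalSpace Y] [T2Space Y]
    [ChartedSpace (Cm p) Y] [IsManifold 𝓘(ℂ, Cm p) ω Y] [NormedAddCommGroup E₁] [NormedSpace ℂ E₁]
    [FiniteDimensional ℂ E₁] (T : Tame E₁ X) (f : X → Y) (S : Set Y) (e₀ : Cm n ≃L[ℂ] (Cm p × E₁))
    (Δ : Set X → ℝ) (r j₂ : ℕ) (B : Set X), IsSmall2 (Cm n) B → TameOKB (n := n) B T →
    ContMDiff 𝓘(ℂ, Cm n) 𝓘(ℂ, Cm p) ω f →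
    IsSmallSet (Cm p) S → (∀ x, f x ∉ S → Function.Surjective (dM (Cm n) (Cm p) f x)) →
    J.IsSNC (Cm n) Δ → (∀ y, y ∉ S → HasFormsT T f S e₀ Δ r y) →
    KodFGE n p Δ (id : X → X) f j₂ →
    KodGE (Cm n) (fun (D : Set X) z g => IsLocalEq (Cm n) D g z) Δ (j₂ + r)

/-- **B4** (as G4: `f⁻¹(S) ∪ supp Δ ∪ B` is closed and small). -/
def CardBStmt : Prop :=
  ∀ (n p : ℕ) (X₁ X Y : Type) [TopologicalSpace X₁] [T2Space X₁] [CompactSpace X₁]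
    [ChartedSpace (Cm n) X₁] [IsManifold 𝓘(ℂ, Cm n) ω X₁] [TopologicalSpace X] [T2Space X]
    [CompactSpace X] [ConnectedSpace X]
    [ChartedSpace (Cm n) X] [IsManifold 𝓘(ℂ, Cm n) ω X] [TopologicalSpace Y] [T2Space Y]
    [ChartedSpace (Cm p) Y] [IsManifold 𝓘(ℂ, Cm p) ω Y] (u : X₁ → X) (f : X → Y) (S : Set Y)
    (Δ : Set X → ℝ) (B : Set X), ContMDiff 𝓘(ℂ, Cm n) 𝓘(ℂ, Cm n) ω u →
    ContMDiff 𝓘(ℂ, Cm n) 𝓘(ℂ, Cm p) ω f → Function.Surjective f → IsSmallSet (Cm p) S →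
    (∀ x, f x ∉ S → Function.Surjective (mfderiv 𝓘(ℂ, Cm n) 𝓘(ℂ, Cm p) f x)) →
    J.IsSNC (Cm n) Δ → IsSmall2 (Cm n) B →
    (∀ x₁, f (u x₁) ∉ S → u x₁ ∉ B → (∀ D, Δ D ≠ 0 → u x₁ ∉ D) →
      Function.Injective (mfderiv 𝓘(ℂ, Cm n) 𝓘(ℂ, Cm n) u x₁)) →
    ∃ m : ℕ, ∀ x, f x ∉ S → x ∉ B → (∀ D, Δ D ≠ 0 → x ∉ D) → (u ⁻¹' {x}).encard ≤ m

/-- **B5** (as G6: `hol` at `x ∉ B` and `bound` word for word, on the slices off `B`; `hol` at `x ∈ B`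
by Hartogs: `jac^(kN) tr ∏ e^κ / jac^(kN)` is holomorphic near `x` off `B`). -/
def TraceBStmt : Prop :=
  ∀ (p d N k m : ℕ) (X₁ Y₁ X Y : Type) [TopologicalSpace X₁] [T2Space X₁] [CompactSpace X₁]
    [ChartedSpace (Cm (p + d)) X₁] [IsManifold 𝓘(ℂ, Cm (p + d)) ω X₁] [TopologicalSpace Y₁]
    [T2Space Y₁] [ChartedSpace (Cm p) Y₁] [IsManifold 𝓘(ℂ, Cm p) ω Y₁] [TopologicalSpace X]
    [T2Space X] [CompactSpace X]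
    [ChartedSpace (Cm (p + d)) X] [IsManifold 𝓘(ℂ, Cm (p + d)) ω X] [TopologicalSpace Y]
    [T2Space Y] [ChartedSpace (Cm p) Y] [IsManifold 𝓘(ℂ, Cm p) ω Y] (f₁ : X₁ → Y₁)
    (Δ₁ : Set X₁ → ℝ) (f : X → Y) (Δ : Set X → ℝ) (u : X₁ → X) (v : Y₁ → Y) (S₀ S : Set Y)
    (S₁ : Set Y₁) (B : Set X)
    (w₁ : Chart (p + d) X₁ → Cm (p + d) → Matrix (Fin (p + d)) (Fin (p + d)) ℂ)
    (e₀ : Cm (p + d) ≃L[ℂ] (Cm p × Cm d)) (𝒜₁ : Set (Set X₁)) (κ₁ : Set X₁ → ℕ) (Θ₁ : X₁ → ℂ)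
    (κ : Set X → ℕ), 0 < d → 0 < k → IsSqB (n := p + d) (p := p) f₁ Δ₁ f Δ u v S₀ B →
    ContMDiff 𝓘(ℂ, Cm (p + d)) 𝓘(ℂ, Cm p) ω f₁ → ContMDiff 𝓘(ℂ, Cm (p + d)) 𝓘(ℂ, Cm p) ω f →
    J.IsSNC (Cm (p + d)) Δ₁ → J.IsSNC (Cm (p + d)) Δ → IsClosed S → S₀ ⊆ S →
    (∀ y₁, v y₁ ∉ S → y₁ ∉ S₁) →
    (∀ x, f x ∉ S → Function.Surjective (mfderiv 𝓘(ℂ, Cm (p + d)) 𝓘(ℂ, Cm p) f x)) →
    (∀ x, f x ∉ S → x ∉ B → (∀ D, Δ D ≠ 0 → x ∉ D) → (u ⁻¹' {x}).encard ≤ m) →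
    RelFormT (KTame w₁) f₁ S₁ e₀ N 𝒜₁ κ₁ Θ₁ → (∀ D ∈ 𝒜₁, Δ₁ D ≠ 0) →
    (∀ D, (κ₁ D : ℝ) ≤ N * Δ₁ D) → (∀ D, (κ D : ℝ) = k * (N * Δ D)) →
    RelFormT (OffT B (UTame u w₁)) f S e₀ (k * N) (insert B {D | Δ D ≠ 0}) κ
      (tr (Cm (p + d)) (Cm p) u v f₁ N k Θ₁)

/-- **B6**: the form can be redefined on `B` (at `z ∈ B` by the value of `H` in the charts at `z` and
`f z`; the two sides agree off `B`, which is dense, and are continuous). -/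
def ExtRStmt : Prop :=
  ∀ (n p : ℕ) (X Y E₁ : Type) [TopologicalSpace X] [T2Space X] [ChartedSpace (Cm n) X]
    [IsManifold 𝓘(ℂ, Cm n) ω X] [TopologicalSpace Y] [T2Space Y] [ChartedSpace (Cm p) Y]
    [IsManifold 𝓘(ℂ, Cm p) ω Y] [NormedAddCommGroup E₁] [NormedSpace ℂ E₁]
    [FiniteDimensional ℂ E₁] (T : Tame E₁ X) (f : X → Y) (S : Set Y) (e₀ : Cm n ≃L[ℂ] (Cm p × E₁))
    (N : ℕ) (𝒜 : Set (Set X)) (κ : Set X → ℕ) (Θ : X → ℂ) (B : Set X), IsSmall2 (Cm n) B →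
    ContMDiff 𝓘(ℂ, Cm n) 𝓘(ℂ, Cm p) ω f → IsClosed S → 𝒜.Finite →
    (∀ D ∈ 𝒜, J.IsPrime (Cm n) D) → {D | κ D ≠ 0}.Finite →
    (∀ D, κ D ≠ 0 → J.IsPrime (Cm n) D) →
    RelFormT (OffT B T) f S e₀ N (insert B 𝒜) κ Θ →
    ∃ Θ' : X → ℂ, (∀ x, x ∉ B → Θ' x = Θ x) ∧ RelFormT (OffT B T) f S e₀ N 𝒜 κ Θ'

/-- **T-GB**, the goal. -/
def TGBStmt : Prop :=
  ∀ (p d r : ℕ) (X₁ Y₁ X Y : Type) [TopologicalSpace X₁] [ChartedSpace (Cm (p + d)) X₁]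
    [IsManifold 𝓘(ℂ, Cm (p + d)) ω X₁] [TopologicalSpace Y₁] [ChartedSpace (Cm p) Y₁]
    [IsManifold 𝓘(ℂ, Cm p) ω Y₁] [TopologicalSpace X] [ChartedSpace (Cm (p + d)) X]
    [TopologicalSpace Y] [ChartedSpace (Cm p) Y] (f₁ : X₁ → Y₁) (Δ₁ : Set X₁ → ℝ) (f : X → Y)
    (Δ : Set X → ℝ) (u : X₁ → X) (v : Y₁ → Y) (S₀ : Set Y) (B : Set X), 0 < d →
    H511.Surf.IsFibration (Cm (p + d)) (Cm p) f₁ Δ₁ →
    H511.Surf.IsFibration (Cm (p + d)) (Cm p) f Δ →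
    IsSqB (n := p + d) (p := p) f₁ Δ₁ f Δ u v S₀ B → HasFam p d r f₁ Δ₁ →
    ∃ H : ℕ → Set Y, (∀ k, IsThinSet (Cm p) (H k)) ∧ ∀ y, (∀ k, y ∉ H k) →
      ∀ (F : Type) [TopologicalSpace F] [ChartedSpace (Cm d) F] (i : F → X),
        H511.Surf.IsFibre (Cm (p + d)) (Cm d) f y i →
        ((r : ℕ∞) : WithBot ℕ∞) + TZ.S.kodF (p + d) p Δ (id : X → X) f ≤
            TZ.S.kodX (Cm (p + d)) Δ ∧
          (TZ.S.kodR (Cm (p + d)) (Cm d) i Δ ≤ ((r : ℕ∞) : WithBot ℕ∞) →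
            TZ.S.kodR (Cm (p + d)) (Cm d) i Δ + TZ.S.kodF (p + d) p Δ (id : X → X) f ≤
              TZ.S.kodX (Cm (p + d)) Δ ∧
            (NoExc (Cm (p + d)) (Cm p) f → H511.Surf.Q1 (Cm (p + d)) (Cm p) (Cm d) f Δ i))

end Vale.Agent.P281.H969.TGB
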