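import Vale.Agent.P281.H969.TGB.LCore
import Vale.Agent.P281.H383.U.Main

/-! P281, project T-GB, block B3 (helper969): the final statement. -/

open scoped Manifold ContDiff Topology
open Set Filter Metric Vale.Agent.P281 Vale.Agent.P272.K
open Vale.Agent.P281.MF Vale.Agent.P281.ISO Vale.Agent.P281.ELL Vale.Agent.P281.H713
open Vale.Agent.P281.H713.TZ Vale.Agent.P281.H64.Gen Vale.Agent.P281.H64.TU

noncomputable section

namespace Vale.Agent.P281.H969.TGB

/-- **B3** -/
theorem liftTB : LiftTBStmt := by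
  intro n p X Y E₁ _ _ _ _ _ _ _ _ _ _ _ _ T f S e₀ Δ r j₂ B hB hT hf hS hsub hsnc hform h₂
  exact kodGE_UB hB hT H413.TZ.genPart H342.TZ.slicePart H431.linPart H498.poleZPart
    H383.U.isBigOpen_id hf hS hsub e₀ hsnc hsnc (H383.U.isRestriction_id Δ) hform h₂

end Vale.Agent.P281.H969.TGB
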