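import Vale.Agent.P281.H969.TGB.Desc
import Vale.Agent.P281.H969.TG.Core

/-!
# P281, project T-GB (helper969), block B8: the assembly
-/

open Set Filter Metric Vale.Agent.P281 Vale.Agent.P281.H713
open Vale.Agent.P272.K (Chart IsKahler IsHermitian Cm)
open Vale.Agent.P281.MF Vale.Agent.P281.ISO
open Vale.Agent.P281.H713.TZ
open Vale.Agent.P281.H64.Gen (IsSmallSet IsSmall2 IsAnalyticSet NoExc CritStmt ComplStmt)
open Vale.Agent.P281.H64.Thin (IsThinSet)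
open Vale.Agent.P281.H64.TU (Tame KTame TameOK RelFormT HasFormsT)
open Vale.Agent.P281.H969.TL Vale.Agent.P281.H969.TG
open scoped Topology ContDiff Manifold

set_option linter.all false

noncomputable section

namespace Vale.Agent.P281.H969.TGB

theorem tameOffB {n : ℕ} {E₀ Z : Type} [NormedAddCommGroup E₀] [NormedSpace ℂ E₀]
    [TopologicalSpace Z] [ChartedSpace (Cm n) Z] {B : Set Z} (hB : IsClosed B) {𝒯 : Tame E₀ Z}
    (h : TameOK (n := n) 𝒯) : TameOKB (n := n) B (OffT B 𝒯) := by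
  intro y z₀ P hyB hy
  obtain ⟨N, hN, K, hK, hT⟩ := h y z₀ P hy
  refine ⟨N ∩ Bᶜ, inter_mem hN (hB.isOpen_compl.mem_nhds hyB), K, hK, fun Q v₀ r hr hQ =>
    ⟨fun v hv => (hQ v hv).2.1.2, hT Q v₀ r hr fun v hv => ?_⟩⟩
  obtain ⟨h1, h2, h3⟩ := hQ v hv
  exact ⟨h1, h2.1, h3⟩

/-- **T-GB** from the blocks -/
theorem tgb_of (crit : CritStmt) (fi : H64.TD.FibInStmt) (hBad : BadStmt) (lift : LiftTBStmt)
    (hTame : TameUStmt) (hVS : VSmallStmt) (hCard : CardBStmt) (hTr : TraceBStmt) (hPow : PowStmt)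
    (hExt : ExtRStmt) : TGBStmt := by
  intro p d r X₁ Y₁ X Y _ _ _ _ _ _ _ _ _ _ f₁ Δ₁ f Δ u v S₀ B hd h₁ h hsq hFam
  classical
  obtain ⟨w₁, S₁, hw₁, hS₁, hP₁, hF⟩ := hFam
  have : T2Space X₁ := h₁.hausdorff.1
  have : T2Space Y₁ := h₁.hausdorff.2
  have : CompactSpace X₁ := h₁.compact
  have : T2Space X := h.hausdorff.1
  have : T2Space Y := h.hausdorff.2
  have : CompactSpace X := h.compact
  have : ConnectedSpace X := h.connected
  have : IsManifold 𝓘(ℂ, Cm (p + d)) ω X := h.manifold.1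
  have : IsManifold 𝓘(ℂ, Cm p) ω Y := h.manifold.2
  have hsurj : Function.Surjective f := fun y => (h.fibres y).nonempty
  have hsurj₁ : Function.Surjective f₁ := fun y => (h₁.fibres y).nonempty
  have : CompactSpace Y₁ := by
    refine isCompact_univ_iff.1 ?_
    rw [← hsurj₁.range_eq]
    exact isCompact_range h₁.hol.continuous
  have hprime : ∀ D ∈ h.snc.1.toFinset, J.IsPrime (Cm (p + d)) D := fun D hD =>
    h.snc.2.1 D (by simpa using hD)
  obtain ⟨Sc, hSc, hP⟩ := crit (p + d) p X Y f h.hol h.fibres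
  obtain ⟨Sd, hcd, hSd, hne⟩ := fibIn_fin fi hd h.hol hP hSc h.snc.1.toFinset hprime
  obtain ⟨Sb, hdb, hSb, hneB⟩ := hBad p d X Y f Sd B h.hol hSd (hP Sd hcd hSd.1) hsq.small2
    hsq.an
  have hV : IsSmallSet (Cm p) (S₀ ∪ v '' S₁) :=
    hVS p Y₁ Y v S₀ S₁ hsq.holv hsq.small hsq.etale hS₁
  have hS : IsSmallSet (Cm p) (Sb ∪ (S₀ ∪ v '' S₁)) := hSb.union hV
  obtain ⟨S, hSe⟩ : ∃ S, Sb ∪ (S₀ ∪ v '' S₁) = S := ⟨_, rfl⟩
  rw [hSe] at hS
  have hbS : Sb ⊆ S := by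
    rw [← hSe]
    exact subset_union_left
  have hdS : Sd ⊆ S := hdb.trans hbS
  have h0S : S₀ ⊆ S := by
    rw [← hSe]
    exact subset_union_left.trans subset_union_right
  have hvS : ∀ y₁, v y₁ ∉ S → y₁ ∉ S₁ := by
    intro y₁ h1 h2
    rw [← hSe] at h1
    exact h1 (Or.inr (Or.inr ⟨y₁, h2, rfl⟩))
  have hPS := hP S (hcd.trans hdS) hS.1
  have hu : ∀ x, HolM (Cm (p + d)) (Cm (p + d)) u x := fun x => hsq.holu.contMDiffAt
  obtain ⟨m, hm⟩ := hCard (p + d) p X₁ X Y u f S Δ B hsq.holu h.hol hsurj hS hPS.submersive h.snc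
    hsq.small2 fun x₁ h1 h3 h2 => inj_of_det (etale_of_le (hu x₁) h₁.snc h.snc
      (hsq.le x₁ (fun h3 => h1 (by rw [hsq.comm]; exact h0S h3)) h3) h2)
  let e₀ : Cm (p + d) ≃L[ℂ] (Cm p × Cm d) := ContinuousLinearEquiv.ofFinrankEq (by
    simp)
  have hforms : ∀ y ∉ S, HasFormsT (OffT B (UTame u w₁)) f S e₀ Δ r y :=
    descB hTr hPow hExt hd hsq h₁.hol h.hol hsurj h₁.snc h.snc hS.1 h0S hvS hP₁.submersive
      hPS.submersive (fun y hy D hD => hne D (by simpa using hD) y fun h3 => hy (hdS h3))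
      (fun y hy => hneB y fun h3 => hy (hbS h3))
      (fun y hy => (hPS.connected y hy).isPreconnected)
      (fun y hy => (hP₁.connected y hy).isPreconnected) hm (hF e₀)
  have hmain : ((r : ℕ∞) : WithBot ℕ∞) + TZ.S.kodF (p + d) p Δ (id : X → X) f ≤
        TZ.S.kodX (Cm (p + d)) Δ := by
    refine H303.UF.first_of fun j₂ h₂ => ?_
    exact lift (p + d) p X Y (Cm d) (OffT B (UTame u w₁)) f S e₀ Δ r j₂ B hsq.small2
      (tameOffB hsq.small2.1 (hTame (p + d) d X₁ X u w₁ hsq.holu hw₁)) h.hol hS hPS.submersive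
      h.snc hforms h₂
  obtain ⟨H, hH, hsub⟩ := hS.2
  refine ⟨H, hH, fun y hy F _ _ i hi => ⟨hmain, fun hk => ?_⟩⟩
  have hyS : y ∉ S := by
    intro h2
    obtain ⟨k, hk⟩ := mem_iUnion.1 (hsub h2)
    exact hy k hk
  have h2 := H64.TK.finish h.hol h.fibres h.snc hPS hyS hi ((add_le_add hk le_rfl).trans hmain)
  exact ⟨h2.1.1, h2.2⟩

end Vale.Agent.P281.H969.TGB
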