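import Vale.Agent.P281.H969.TG.Desc
import Vale.Agent.P281.H969.TGB.Spec

/-!
# P281, project T-GB (helper969), block B7: local lemmas
-/

open scoped Manifold ContDiff Topology
open Set Filter Metric Module

noncomputable section

namespace Vale.Agent.P281.H969.TGB

open Vale.Agent.P281 Vale.Agent.P281.MF Vale.Agent.P281.ISO
open Vale.Agent.P281.H713 Vale.Agent.P281.H969.TL Vale.Agent.P281.H969.TG
open Vale.Agent.P281.H64.TU (Tame KTame TameOK RelFormT HasFormsT)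
open Vale.Agent.P281.H64.Gen (IsSmallSet IsSmall2 IsAnalyticSet)
open Vale.Agent.P272.K (Chart IsHermitian Cm)

set_option linter.unusedSectionVars false

section Dense

variable {E E' : Type} [NormedAddCommGroup E] [NormedSpace ℂ E] [FiniteDimensional ℂ E]
  [NormedAddCommGroup E'] [NormedSpace ℂ E'] [FiniteDimensional ℂ E']
variable {X Y : Type} [TopologicalSpace X] [ChartedSpace E X] [IsManifold 𝓘(ℂ, E) ω X]
  [TopologicalSpace Y] [ChartedSpace E' Y] [IsManifold 𝓘(ℂ, E') ω Y] {d : ℕ}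

/-- The identity theorem in a slice, uniformly in the function. -/
theorem slice_identU {f : X → Y} (hf : ∀ x, HolM E E' f x) (e₀ : E ≃L[ℂ] (E' × (Fin d → ℂ)))
    {x₀ : X} (hs : Function.Surjective (dM E E' f x₀)) {U : Set X} (hU : IsOpen U)
    (hx₀ : x₀ ∈ U) :
    ∃ N ∈ 𝓝 x₀, N ⊆ U ∧ ∀ g : X → ℂ, (∀ z ∈ U, HolV E g z) →
      (∃ z ∈ N, f z = f x₀ ∧ ∀ᶠ w in 𝓝 z, f w = f x₀ → g w = 0) →
      ∀ w ∈ N, f w = f x₀ → g w = 0 := by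
  obtain ⟨ζ, q, hζ, -, hq, hq0, hqe, hqz⟩ := exists_slice_s hf e₀ hs
  have hqU : ∀ᶠ v in 𝓝 (ζ x₀), q v ∈ U := by
    refine hq.continuousAt.eventually (hU.mem_nhds ?_)
    rw [hq0]
    exact hx₀
  have h2' : ∀ᶠ v in 𝓝 (ζ x₀), ContMDiffAt 𝓘(ℂ, Fin d → ℂ) 𝓘(ℂ, E) ω q v :=
    (contMDiffAt_iff_contMDiffAt_nhds (by simp)).1 hq
  obtain ⟨r, hr, hball⟩ := Metric.eventually_nhds_iff_ball.1 (hqU.and (hqe.and h2'))
  have h3 : ∀ᶠ z in 𝓝 x₀, ζ z ∈ ball (ζ x₀) r :=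
    hζ.continuousAt.eventually (ball_mem_nhds _ hr)
  refine ⟨{z | z ∈ U ∧ (f z = f x₀ → q (ζ z) = z) ∧ ζ z ∈ ball (ζ x₀) r},
    (show ∀ᶠ z in 𝓝 x₀, z ∈ U from hU.mem_nhds hx₀).and (hqz.and h3), fun z hz => hz.1, ?_⟩
  rintro g hg ⟨z, ⟨-, hz1, hz2⟩, hz3, hz4⟩
  have han : ∀ v ∈ ball (ζ x₀) r, AnalyticAt ℂ (fun v => g (q v)) v := fun v hv =>
    (slice_fderiv (hball v hv).2.2 (hg _ (hball v hv).1)).1.analyticAt
  have h4 : q (ζ z) = z := hz1 hz3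
  have h5 : ∀ᶠ v in 𝓝 (ζ z), g (q v) = 0 := by
    have h6 : Tendsto q (𝓝 (ζ z)) (𝓝 z) := by
      have := (hball _ hz2).2.2.continuousAt.tendsto
      rwa [h4] at this
    filter_upwards [h6.eventually hz4, isOpen_ball.mem_nhds hz2] with v h7 h8
    exact h7 (hball v h8).2.1.1
  have h7 : EqOn (fun v => g (q v)) 0 (ball (ζ x₀) r) :=
    AnalyticOnNhd.eqOn_zero_of_preconnected_of_eventuallyEq_zero
      (fun v hv => han v hv) (convex_ball _ _).isPreconnected hz2 h5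
  rintro w ⟨-, hw1, hw2⟩ hw3
  have h11 := h7 hw2
  rw [← hw1 hw3]
  exact h11

/-- An analytic subset which does not contain a fibre is nowhere dense in it. -/
theorem dense_fam {f : X → Y} (hf : ∀ x, HolM E E' f x) (e₀ : E ≃L[ℂ] (E' × (Fin d → ℂ)))
    {y : Y} (hs : ∀ x, f x = y → Function.Surjective (dM E E' f x))
    (hc : IsPreconnected (f ⁻¹' {y})) {A : Set X}
    (hA : ∀ x, f x = y → ∃ (U : Set X) (ι : Type) (g : ι → X → ℂ), IsOpen U ∧ x ∈ U ∧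
      (∀ i, ∀ z ∈ U, HolV E (g i) z) ∧ ∀ z ∈ U, z ∈ A ↔ ∀ i, g i z = 0)
    (hne : ¬ f ⁻¹' {y} ⊆ A) {x : X} (hx : f x = y) : ∃ᶠ z in 𝓝 x, f z = y ∧ z ∉ A := by
  intro h0
  refine hne fun x' hx' => ?_
  have h0' : ∀ᶠ z in 𝓝[f ⁻¹' {y}] x, z ∈ A := by
    rw [eventually_nhdsWithin_iff]
    filter_upwards [h0] with z h1 h2
    by_contra h3
    exact h1 ⟨h2, h3⟩
  have h1 : ∀ᶠ z in 𝓝[f ⁻¹' {y}] x', z ∈ A := by
    refine clopen_fib (P := fun x => ∀ᶠ z in 𝓝[f ⁻¹' {y}] x, z ∈ A) hc ?_ ?_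
      (show x ∈ f ⁻¹' {y} from hx) h0' hx'
    · intro z _ hz
      exact eventually_eventually_nhdsWithin.2 hz
    · intro z hz hfr
      have hz' : f z = y := hz
      obtain ⟨U, ι, g, hU, hzU, hg, hgA⟩ := hA z hz'
      obtain ⟨N, hN, hNU, hNe⟩ := slice_identU hf e₀ (hs z hz') hU hzU
      rw [hz'] at hNe
      obtain ⟨w, hwN, hwy, hwA⟩ : ∃ w ∈ N, f w = y ∧ ∀ᶠ t in 𝓝 w, f t = y → t ∈ A := by
        have h3 : ∀ᶠ w in 𝓝[f ⁻¹' {y}] z, w ∈ N :=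
          mem_nhdsWithin_of_mem_nhds (show ∀ᶠ w in 𝓝 z, w ∈ N from hN)
        have h3' : ∀ᶠ w in 𝓝[f ⁻¹' {y}] z, f w = y := self_mem_nhdsWithin
        obtain ⟨w, hw1, hw2, hw3⟩ := (hfr.and_eventually (h3.and h3')).exists
        exact ⟨w, hw2, hw3, eventually_nhdsWithin_iff.1 hw1⟩
      have h5 : ∀ i, ∀ t ∈ N, f t = y → g i t = 0 := by
        intro i
        refine hNe (g i) (hg i) ⟨w, hwN, hwy, ?_⟩
        filter_upwards [hwA, hU.mem_nhds (hNU hwN)] with t h4 h5 h6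
        exact (hgA t h5).1 (h4 h6) i
      rw [eventually_nhdsWithin_iff]
      filter_upwards [hN] with t h6 h7
      exact (hgA t (hNU h6)).2 fun i => h5 i t h6 h7
  exact (eventually_nhdsWithin_iff.1 h1).self_of_nhds hx'

end Dense

section Fam

variable {n : ℕ} {X : Type} [TopologicalSpace X] [ChartedSpace (Cm n) X]
  [IsManifold 𝓘(ℂ, Cm n) ω X]

/-- the union of the support of `Δ` and of an analytic set -/
theorem fam_off {Δ : Set X → ℝ} (hΔ : J.IsSNC (Cm n) Δ) {B : Set X}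
    (hB : IsAnalyticSet (Cm n) B) (x : X) :
    ∃ (U : Set X) (ι : Type) (g : ι → X → ℂ), IsOpen U ∧ x ∈ U ∧
      (∀ i, ∀ z ∈ U, HolV (Cm n) (g i) z) ∧
      ∀ z ∈ U, z ∈ {z | (∃ D ∈ hΔ.1.toFinset, z ∈ D) ∨ z ∈ B} ↔ ∀ i, g i z = 0 := by
  classical
  obtain ⟨U, ι, h, hU, hxU, hh, hhB⟩ := hB x
  have h1 : ∀ D, ∃ (g : X → ℂ) (V : Set X), D ∈ hΔ.1.toFinset → IsOpen V ∧ x ∈ V ∧
      (∀ z ∈ V, HolV (Cm n) g z) ∧ ∀ z ∈ V, z ∈ D ↔ g z = 0 := by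
    intro D
    by_cases hD : D ∈ hΔ.1.toFinset
    · obtain ⟨g, V, hV, hxV, hgV, hDV, -⟩ := (hΔ.2.1 D (by simpa using hD)).2.1 x
      exact ⟨g, V, fun _ => ⟨hV, hxV, hgV, hDV⟩⟩
    · exact ⟨fun _ => 0, ∅, fun h' => absurd h' hD⟩
  choose g V hgV using h1
  refine ⟨U ∩ ⋂ D ∈ hΔ.1.toFinset, V D, ι, fun i z => (∏ D ∈ hΔ.1.toFinset, g D z) * h i z,
    hU.inter (isOpen_biInter_finset fun D hD => (hgV D hD).1),
    ⟨hxU, mem_iInter₂.2 fun D hD => (hgV D hD).2.1⟩, fun i z hz => ?_, fun z hz => ?_⟩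
  · exact (HolV.prod fun D hD => (hgV D hD).2.2.1 z (mem_iInter₂.1 hz.2 D hD)).mul
      (hh i z hz.1)
  · constructor
    · rintro (⟨D, hD, hzD⟩ | hzB) i
      · have h2 : g D z = 0 := ((hgV D hD).2.2.2 z (mem_iInter₂.1 hz.2 D hD)).1 hzD
        show (∏ D ∈ hΔ.1.toFinset, g D z) * h i z = 0
        rw [Finset.prod_eq_zero hD h2, zero_mul]
      · show (∏ D ∈ hΔ.1.toFinset, g D z) * h i z = 0
        rw [(hhB z hz.1).1 hzB i, mul_zero]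
    · intro h2
      by_cases h3 : ∏ D ∈ hΔ.1.toFinset, g D z = 0
      · obtain ⟨D, hD, h4⟩ := Finset.prod_eq_zero_iff.1 h3
        exact Or.inl ⟨D, hD, ((hgV D hD).2.2.2 z (mem_iInter₂.1 hz.2 D hD)).2 h4⟩
      · refine Or.inr ((hhB z hz.1).2 fun i => ?_)
        exact (mul_eq_zero.1 (h2 i)).resolve_left h3

end Fam

section Loc

variable {p d N : ℕ} {X₁ Y₁ X Y : Type} [TopologicalSpace X₁]
  [ChartedSpace (Cm (p + d)) X₁] [IsManifold 𝓘(ℂ, Cm (p + d)) ω X₁] [TopologicalSpace Y₁]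
  [ChartedSpace (Cm p) Y₁] [IsManifold 𝓘(ℂ, Cm p) ω Y₁] [TopologicalSpace X]
  [ChartedSpace (Cm (p + d)) X] [IsManifold 𝓘(ℂ, Cm (p + d)) ω X] [TopologicalSpace Y]
  [ChartedSpace (Cm p) Y] [IsManifold 𝓘(ℂ, Cm p) ω Y] {f₁ : X₁ → Y₁}
  {Δ₁ : Set X₁ → ℝ} {f : X → Y} {Δ : Set X → ℝ} {u : X₁ → X} {v : Y₁ → Y}
  {S₁ : Set Y₁} {𝒯 : Tame (Cm d) X₁} {e₀ : Cm (p + d) ≃L[ℂ] (Cm p × Cm d)}
  {𝒜₁ : Set (Set X₁)} {κ₁ : Set X₁ → ℕ} {Θ₁ : X₁ → ℂ}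

/-- The transported form along a sheet. -/
theorem trn_localB (holu : ContMDiff 𝓘(ℂ, Cm (p + d)) 𝓘(ℂ, Cm (p + d)) ω u)
    (holv : ContMDiff 𝓘(ℂ, Cm p) 𝓘(ℂ, Cm p) ω v) (comm : ∀ x₁, f (u x₁) = v (f₁ x₁))
    (hf₁ : ∀ x, HolM (Cm (p + d)) (Cm p) f₁ x) (hΔ₁ : J.IsSNC (Cm (p + d)) Δ₁)
    (hΔ : J.IsSNC (Cm (p + d)) Δ) (hR : RelFormT 𝒯 f₁ S₁ e₀ N 𝒜₁ κ₁ Θ₁)
    (h𝒜 : ∀ D ∈ 𝒜₁, Δ₁ D ≠ 0) (hκ : ∀ D, (κ₁ D : ℝ) ≤ N * Δ₁ D) {x : X}
    (hxΔ : ∀ D, Δ D ≠ 0 → x ∉ D) {s : X → X₁} (hs : HolM (Cm (p + d)) (Cm (p + d)) s x)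
    (hle : LogLe (p + d) u Δ₁ Δ (s x))
    (hus : ∀ᶠ z in 𝓝 x, u (s z) = z) (hS₁ : f₁ (s x) ∉ S₁) :
    ∃ h : X → ℂ, HolV (Cm (p + d)) h x ∧ ∀ᶠ z in 𝓝 x,
      trn (Cm (p + d)) (Cm p) u v f₁ N Θ₁ (s z) =
        h z * (jac (Cm (p + d)) (chartAt (Cm (p + d)) x) z /
          jac (Cm p) (chartAt (Cm p) (f x)) (f z)) ^ N := by
  classical
  have hu : ∀ x, HolM (Cm (p + d)) (Cm (p + d)) u x := fun x => holu.contMDiffAt
  have hv : ∀ y, HolM (Cm p) (Cm p) v y := fun y => holv.contMDiffAt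
  set x₁ := s x with hx₁
  have hux : u x₁ = x := hus.self_of_nhds
  have hvy : v (f₁ x₁) = f x := by rw [← comm, hux]
  have hx₁Δ : ∀ D, Δ₁ D ≠ 0 → x₁ ∉ D := off_of_le hΔ₁ hΔ hle (by rw [hux]; exact hxΔ)
  have hdet : (dM (Cm (p + d)) (Cm (p + d)) u x₁).det ≠ 0 :=
    etale_of_le (hu x₁) hΔ₁ hΔ hle (by rw [hux]; exact hxΔ)
  have hcl : ∀ D, Δ₁ D ≠ 0 → IsClosed D := fun D hD => (hΔ₁.2.1 D hD).1
  obtain ⟨H, hH, hHe⟩ := hR.hol x₁ x₁ (f₁ x₁) hS₁ (mem_chart_source _ _) (mem_chart_source _ _)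
    hΔ₁.1.toFinset (fun _ _ => 1) (fun D hD => by
      have h1 : Δ₁ D ≠ 0 := by
        intro h0
        have h2 := hκ D
        rw [h0, mul_zero] at h2
        have h3 : (κ₁ D : ℝ) = 0 := le_antisymm h2 (Nat.cast_nonneg _)
        exact hD (by exact_mod_cast h3)
      simpa using h1)
    (fun D hD => localEq_one (hcl D (by simpa using hD)) (hx₁Δ D (by simpa using hD)))
  have hst : Tendsto s (𝓝 x) (𝓝 x₁) := hs.continuousAt
  have hft : Tendsto f₁ (𝓝 x₁) (𝓝 (f₁ x₁)) := (hf₁ x₁).continuousAt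
  have hoff : ∀ᶠ z in 𝓝 x₁, ∀ D ∈ hΔ₁.1.toFinset, z ∉ D :=
    (Finset.eventually_all _).2 fun D hD =>
      (hcl D (by simpa using hD)).isOpen_compl.mem_nhds (hx₁Δ D (by simpa using hD))
  have hdcu : dc (p + d) u x₁ x₁ ≠ 0 := by
    intro h0
    have h1 := (dc_jac (hu x₁)).self_of_nhds
    rw [h0, zero_mul] at h1
    rcases mul_eq_zero.1 h1 with h2 | h2
    · exact jac_chart_ne_zero (mem_chart_source _ _) h2
    · exact hdet h2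
  have hJX₁ : ∀ᶠ z in 𝓝 x₁, jac (Cm (p + d)) (chartAt (Cm (p + d)) x₁) z ≠ 0 := by
    filter_upwards [(chartAt (Cm (p + d)) x₁).open_source.mem_nhds (mem_chart_source _ x₁)]
      with z hz using jac_chart_ne_zero hz
  have hJY₁ : ∀ᶠ w in 𝓝 (f₁ x₁), jac (Cm p) (chartAt (Cm p) (f₁ x₁)) w ≠ 0 := by
    filter_upwards [(chartAt (Cm p) (f₁ x₁)).open_source.mem_nhds (mem_chart_source _ _)]
      with z hz using jac_chart_ne_zero hz
  have hJX : ∀ᶠ z in 𝓝 x₁, jac (Cm (p + d)) (chartAt (Cm (p + d)) (u x₁)) (u z) ≠ 0 := by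
    filter_upwards [(hu x₁).continuousAt.eventually
      ((chartAt (Cm (p + d)) (u x₁)).open_source.mem_nhds (mem_chart_source _ _))]
      with z hz using jac_chart_ne_zero hz
  have hJY : ∀ᶠ w in 𝓝 (f₁ x₁), jac (Cm p) (chartAt (Cm p) (v (f₁ x₁))) (v w) ≠ 0 := by
    filter_upwards [(hv (f₁ x₁)).continuousAt.eventually
      ((chartAt (Cm p) (v (f₁ x₁))).open_source.mem_nhds (mem_chart_source _ _))]
      with z hz using jac_chart_ne_zero hz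
  have hloc : ∀ᶠ z in 𝓝 x₁, trn (Cm (p + d)) (Cm p) u v f₁ N Θ₁ z =
      H z * (dc p v (f₁ x₁) (f₁ z) / dc (p + d) u x₁ z) ^ N *
        (jac (Cm (p + d)) (chartAt (Cm (p + d)) (u x₁)) (u z) /
          jac (Cm p) (chartAt (Cm p) (v (f₁ x₁))) (v (f₁ z))) ^ N := by
    filter_upwards [hHe, hoff, dc_jac (hu x₁), hft.eventually (dc_jac (hv (f₁ x₁))),
      (dc_holV (hu x₁)).continuousAt.eventually_ne hdcu, hJX₁, hft.eventually hJY₁, hJX,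
      hft.eventually hJY] with z h1 h2 h3 h4 h5 h6 h7 h8 h9
    have h10 := h1 (fun D hD => h2 D (by simpa using h𝒜 D hD)) (by simp)
    have h10' : jac (Cm p) (chartAt (Cm p) (f₁ x₁)) (f₁ z) ^ N * Θ₁ z =
        H z * jac (Cm (p + d)) (chartAt (Cm (p + d)) x₁) z ^ N := by
      rw [← h10]
      simp
    have h11 : (dM (Cm (p + d)) (Cm (p + d)) u z).det =
        dc (p + d) u x₁ z * jac (Cm (p + d)) (chartAt (Cm (p + d)) x₁) z /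
          jac (Cm (p + d)) (chartAt (Cm (p + d)) (u x₁)) (u z) := by
      rw [eq_div_iff h8, ← h3, mul_comm]
    have h12 : (dM (Cm p) (Cm p) v (f₁ z)).det =
        dc p v (f₁ x₁) (f₁ z) * jac (Cm p) (chartAt (Cm p) (f₁ x₁)) (f₁ z) /
          jac (Cm p) (chartAt (Cm p) (v (f₁ x₁))) (v (f₁ z)) := by
      rw [eq_div_iff h9, ← h4, mul_comm]
    have h13 : Θ₁ z = H z * jac (Cm (p + d)) (chartAt (Cm (p + d)) x₁) z ^ N /
        jac (Cm p) (chartAt (Cm p) (f₁ x₁)) (f₁ z) ^ N := by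
      rw [eq_div_iff (pow_ne_zero N h7), ← h10', mul_comm]
    unfold trn
    rw [h11, h12, h13, div_pow, div_pow, div_pow, div_pow, div_pow, mul_pow, mul_pow]
    have h5' := pow_ne_zero N h5
    have h6' := pow_ne_zero N h6
    have h7' := pow_ne_zero N h7
    have h8' := pow_ne_zero N h8
    have h9' := pow_ne_zero N h9
    field_simp
  rw [hvy] at hloc
  rw [hux] at hloc
  refine ⟨fun z => H (s z) * (dc p v (f₁ x₁) (f₁ (s z)) / dc (p + d) u x₁ (s z)) ^ N, ?_, ?_⟩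
  · have h1 : HolV (Cm (p + d)) (fun z => H (s z)) x := HolV.comp (h := H) hH hs
    have h2 : HolV (Cm (p + d)) (fun z => dc (p + d) u x₁ (s z)) x :=
      HolV.comp (h := dc (p + d) u x₁) (dc_holV (hu x₁)) hs
    have h3 : HolV (Cm (p + d)) (fun z => dc p v (f₁ x₁) (f₁ z)) x₁ :=
      HolV.comp (h := dc p v (f₁ x₁)) (dc_holV (hv (f₁ x₁))) (hf₁ x₁)
    have h4 : HolV (Cm (p + d)) (fun z => dc p v (f₁ x₁) (f₁ (s z))) x :=
      HolV.comp (h := fun z => dc p v (f₁ x₁) (f₁ z)) h3 hs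
    exact h1.mul (HolV.pow (h4.div h2 hdcu) N)
  · filter_upwards [hst.eventually hloc, hus] with z h1 h2
    rw [h1, ← comm, h2]

end Loc

end Vale.Agent.P281.H969.TGB
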